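import Vale.Agent.P024.H46.NoSplit

namespace Vale.Agent.P024.H46

open scoped NumberField Topology
open NumberField IsDedekindDomain Filter Vale.Agent.P024

/-- Uchida's conjecture for the totally real fields `F₁` which are multiquadratic over `ℚ`. -/
theorem uchida_multi {F₁ E₁ F₂ E₂ : Type*} [Field F₁] [NumberField F₁] [Field E₁] [Algebra F₁ E₁]
    [IsGalois F₁ E₁] [Field F₂] [NumberField F₂] [Field E₂] [Algebra F₂ E₂] [IsGalois F₂ E₂]
    [IsTotallyReal F₁] [IsGalois ℚ F₁] (hG : ∀ g : F₁ ≃ₐ[ℚ] F₁, g * g = 1)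
    (hE₁ : SolvablyClosed E₁) (hE₂ : SolvablyClosed E₂)
    (α : (E₁ ≃ₐ[F₁] E₁) →* (E₂ ≃ₐ[F₂] E₂)) (hα : Continuous α) (hopen : IsOpen (Set.range α)) :
    ∃! j : E₂ →+* E₁, ∀ (g : E₁ ≃ₐ[F₁] E₁) (x : E₂), g (j x) = j ((α g) x) := by
  refine TR.induced_of_noSplit hE₁ hE₂ α hα hopen (insert 2 ∅) (tendsto_insert ∅ 2 ?_) ?_
  · exact tendsto_empty
  · intro p hp hpB
    exact noSplit_multi F₁ hG p (fun h => hpB (Or.inl h))

end Vale.Agent.P024.H46
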