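import Vale.Agent.P024.H358.M3.End
import Vale.Agent.P024.H157.PropsH
import Vale.Agent.P024.H903.PropU
import Vale.Agent.P024.H539.PropA
import Vale.Agent.P024.H409.PropD
import Vale.Agent.P024.H422.TR
import Vale.Agent.P024.H114.LayG
import Vale.Agent.P024.H379.Multi
import Vale.Agent.P024.H644.K11

namespace Vale.Agent.P024.H46

open NumberField IsDedekindDomain Vale.Agent.P024

theorem noSplit_of_clos (F : Type*) [Field F] [NumberField F] [IsTotallyReal F]
    (p : ℕ) [hp : Fact p.Prime] (hp2 : p ≠ 2)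
    (hE : ∀ v : HeightOneSpectrum (𝓞 F), (p : 𝓞 F) ∉ v.asIdeal → M3End.Clos F p v) :
    TR.NoSplit F p :=
  M3End.noSplit_of H157.propH90 H903.propU H539.propA H409.propD H422.TR.propTR H114.Lay.propG
    F p hp2 hE

theorem noSplit_multi (F : Type*) [Field F] [NumberField F] [IsTotallyReal F] [IsGalois ℚ F]
    (hG : ∀ g : F ≃ₐ[ℚ] F, g * g = 1) (p : ℕ) [hp : Fact p.Prime] (hp2 : p ≠ 2) :
    TR.NoSplit F p :=
  noSplit_of_clos F p hp2 fun v hv => H379.clos_multi F hG p hp.out hp2 v hv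

end Vale.Agent.P024.H46
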